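import Vale.Agent.Lib.P160.helper4.SSDefs

/-!
# P160, job 293, piece SS-2 (independent copy): the concrete chain on subsets of `Fin n`

All facts about the weights `qq` of `Lib/P160/helper4/SSDefs.lean` that the abstract chain lemma
needs: nonnegativity, the row and column sums `outF`, `inF`, the balance identity
`in - out = (card S - n / 2) / n`, monotonicity of subset sums along moves, the effect of a move
on the cardinality, the bound on the entry weight, `out ≤ n` and `out ≥ desc / 2`.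

The definitions of `SSDefs.lean` are only used through the `rfl` lemmas below.
-/

namespace Vale.Agent.Lib.P160.H39

open Finset Vale.Agent.Lib.P160 Vale.Agent.Lib.P160.H4

/-! ### anchors -/

theorem qq_eq (n : ℕ) (S S' : Finset (Fin n)) :
    qq n S S' =
      (∑ k : Fin n, ∑ j : Fin n,
          if j.val = k.val + 1 ∧ k ∈ S ∧ j ∉ S ∧ S' = insert j (S.erase k)
            then 1 - (j.val : ℝ) / n else 0) +
      ∑ j : Fin n, if j.val = 0 ∧ j ∉ S ∧ S' = insert j S then (1 / 2 : ℝ) else 0 := rfl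

theorem outF_eq (n : ℕ) (S : Finset (Fin n)) :
    outF n S =
      (∑ k : Fin n, ∑ j : Fin n,
          if j.val = k.val + 1 ∧ k ∈ S ∧ j ∉ S then 1 - (j.val : ℝ) / n else 0) +
      ∑ j : Fin n, if j.val = 0 ∧ j ∉ S then (1 / 2 : ℝ) else 0 := rfl

theorem inF_eq (n : ℕ) (S : Finset (Fin n)) :
    inF n S =
      (∑ k : Fin n, ∑ j : Fin n,
          if j.val = k.val + 1 ∧ k ∉ S ∧ j ∈ S then 1 - (j.val : ℝ) / n else 0) +
      ∑ j : Fin n, if j.val = 0 ∧ j ∈ S then (1 / 2 : ℝ) else 0 := rfl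

theorem desc_eq (n : ℕ) (S : Finset (Fin n)) :
    desc n S = (univ.filter fun k : Fin n =>
      2 * (k.val + 1) ≤ n ∧ k ∈ S ∧ ∀ j : Fin n, j.val = k.val + 1 → j ∉ S).card := rfl

/-! ### generic sums -/

theorem r_nonneg (n : ℕ) (j : Fin n) : 0 ≤ 1 - (j.val : ℝ) / n := by
  have hn : (0 : ℝ) < n := by exact_mod_cast Fin.pos j
  have hj : (j.val : ℝ) ≤ n := by exact_mod_cast j.isLt.le
  rw [sub_nonneg, div_le_one hn]
  exact hj

theorem sum_ite_iff {α : Type*} [Fintype α] [DecidableEq α] (Q : α → Prop) [DecidablePred Q]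
    (P : Prop) [Decidable P] (T : α) (c : ℝ) (h : ∀ x, Q x ↔ (P ∧ x = T)) :
    ∑ x : α, (if Q x then c else 0) = if P then c else 0 := by
  have e : ∀ x, (if Q x then c else 0) = (if P ∧ x = T then c else 0) := by
    intro x
    exact if_congr (h x) rfl rfl
  simp_rw [e]
  by_cases hP : P
  · simp [hP]
  · simp [hP]

theorem sum_val_eq (n t : ℕ) (c : ℝ) :
    ∑ j : Fin n, (if j.val = t then c else 0) = if t < n then c else 0 := by
  refine (Fin.sum_univ_eq_sum_range (fun a => if a = t then c else 0) n).trans ?_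
  rw [Finset.sum_ite_eq']
  simp only [Finset.mem_range]

theorem sum_val_eq_le (n t : ℕ) (c : ℝ) (hc : 0 ≤ c) :
    ∑ j : Fin n, (if j.val = t then c else 0) ≤ c := by
  rw [sum_val_eq]
  split_ifs
  · exact le_refl c
  · exact hc

/-! ### basic facts about the weights -/

theorem qq_nonneg (n : ℕ) (S S' : Finset (Fin n)) : 0 ≤ qq n S S' := by
  rw [qq_eq]
  apply add_nonneg
  · apply Finset.sum_nonneg
    intro k _
    apply Finset.sum_nonneg
    intro j _
    split_ifs
    · exact r_nonneg n j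
    · exact le_refl 0
  · apply Finset.sum_nonneg
    intro j _
    split_ifs <;> norm_num

theorem qq_cases (n : ℕ) (S S' : Finset (Fin n)) (hne : qq n S S' ≠ 0) :
    (∃ k j : Fin n, j.val = k.val + 1 ∧ k ∈ S ∧ j ∉ S ∧ S' = insert j (S.erase k)) ∨
      (∃ j : Fin n, j.val = 0 ∧ j ∉ S ∧ S' = insert j S) := by
  by_contra hcon
  rw [not_or] at hcon
  obtain ⟨h1, h2⟩ := hcon
  apply hne
  rw [qq_eq]
  have e1 : (∑ k : Fin n, ∑ j : Fin n,
      if j.val = k.val + 1 ∧ k ∈ S ∧ j ∉ S ∧ S' = insert j (S.erase k)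
        then 1 - (j.val : ℝ) / n else 0) = 0 := by
    apply Finset.sum_eq_zero
    intro k _
    apply Finset.sum_eq_zero
    intro j _
    exact if_neg (fun hc => h1 ⟨k, j, hc⟩)
  have e2 : (∑ j : Fin n, if j.val = 0 ∧ j ∉ S ∧ S' = insert j S then (1 / 2 : ℝ) else 0)
      = 0 := by
    apply Finset.sum_eq_zero
    intro j _
    exact if_neg (fun hc => h2 ⟨j, hc⟩)
  rw [e1, e2, add_zero]

/-- every move strictly increases the subset sum -/
theorem qq_f_lt (n : ℕ) (a : Fin n → ℝ) (ha : ∀ i, 0 < a i) (hmono : StrictMono a)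
    (S S' : Finset (Fin n)) (hne : qq n S S' ≠ 0) : ∑ i ∈ S, a i < ∑ i ∈ S', a i := by
  rcases qq_cases n S S' hne with ⟨k, j, hjk, hk, hj, rfl⟩ | ⟨j, _, hj, rfl⟩
  · have hj' : j ∉ S.erase k := fun h => hj (Finset.mem_of_mem_erase h)
    rw [Finset.sum_insert hj', ← Finset.add_sum_erase S a hk]
    have hlt : a k < a j := hmono (by rw [Fin.lt_def]; omega)
    linarith
  · rw [Finset.sum_insert hj]
    linarith [ha j]

/-- a move keeps the cardinality (hop) or raises it by one (entry) -/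
theorem qq_card (n : ℕ) (S' S : Finset (Fin n)) (hne : qq n S' S ≠ 0) :
    S'.card = S.card ∨ S'.card + 1 = S.card := by
  rcases qq_cases n S' S hne with ⟨k, j, hjk, hk, hj, rfl⟩ | ⟨j, _, hj, rfl⟩
  · left
    have hj' : j ∉ S'.erase k := fun h => hj (Finset.mem_of_mem_erase h)
    rw [Finset.card_insert_of_notMem hj', Finset.card_erase_of_mem hk]
    have hpos : 0 < S'.card := Finset.card_pos.2 ⟨k, hk⟩
    omega
  · right
    rw [Finset.card_insert_of_notMem hj]

theorem card_le_n (n : ℕ) (S : Finset (Fin n)) : S.card ≤ n := card_finset_fin_le S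

/-! ### row sums -/

theorem sum_qq_out (n : ℕ) (S : Finset (Fin n)) :
    ∑ S' : Finset (Fin n), qq n S S' = outF n S := by
  simp_rw [qq_eq]
  rw [outF_eq, Finset.sum_add_distrib]
  congr 1
  · rw [Finset.sum_comm]
    apply Finset.sum_congr rfl
    intro k _
    rw [Finset.sum_comm]
    apply Finset.sum_congr rfl
    intro j _
    exact sum_ite_iff _ _ (insert j (S.erase k)) _
      (fun x => ⟨fun ⟨h1, h2, h3, h4⟩ => ⟨⟨h1, h2, h3⟩, h4⟩,
        fun ⟨⟨h1, h2, h3⟩, h4⟩ => ⟨h1, h2, h3, h4⟩⟩)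
  · rw [Finset.sum_comm]
    apply Finset.sum_congr rfl
    intro j _
    exact sum_ite_iff _ _ (insert j S) _
      (fun x => ⟨fun ⟨h1, h2, h3⟩ => ⟨⟨h1, h2⟩, h3⟩, fun ⟨⟨h1, h2⟩, h3⟩ => ⟨h1, h2, h3⟩⟩)

/-! ### column sums -/

theorem hop_inv {α : Type*} [DecidableEq α] (k j : α) (hjk : j ≠ k) (S S' : Finset α) :
    (k ∈ S' ∧ j ∉ S' ∧ S = insert j (S'.erase k)) ↔
      (k ∉ S ∧ j ∈ S ∧ S' = insert k (S.erase j)) := by
  constructor
  · rintro ⟨hk, hj, rfl⟩
    refine ⟨?_, Finset.mem_insert_self _ _, ?_⟩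
    · intro hmem
      rcases Finset.mem_insert.1 hmem with h | h
      · exact hjk h.symm
      · exact (Finset.notMem_erase k S') h
    · have hj' : j ∉ S'.erase k := fun h => hj (Finset.mem_of_mem_erase h)
      rw [Finset.erase_insert hj', Finset.insert_erase hk]
  · rintro ⟨hk, hj, rfl⟩
    refine ⟨Finset.mem_insert_self _ _, ?_, ?_⟩
    · intro hmem
      rcases Finset.mem_insert.1 hmem with h | h
      · exact hjk h
      · exact (Finset.notMem_erase j S) h
    · have hk' : k ∉ S.erase j := fun h => hk (Finset.mem_of_mem_erase h)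
      rw [Finset.erase_insert hk', Finset.insert_erase hj]

theorem ent_inv {α : Type*} [DecidableEq α] (j : α) (S S' : Finset α) :
    (j ∉ S' ∧ S = insert j S') ↔ (j ∈ S ∧ S' = S.erase j) := by
  constructor
  · rintro ⟨hj, rfl⟩
    exact ⟨Finset.mem_insert_self _ _, (Finset.erase_insert hj).symm⟩
  · rintro ⟨hj, rfl⟩
    exact ⟨Finset.notMem_erase j S, (Finset.insert_erase hj).symm⟩

theorem ent_in_sum (n : ℕ) (S : Finset (Fin n)) (j : Fin n) :
    ∑ S' : Finset (Fin n), (if j.val = 0 ∧ j ∉ S' ∧ S = insert j S' then (1 / 2 : ℝ) else 0)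
      = if j.val = 0 ∧ j ∈ S then (1 / 2 : ℝ) else 0 := by
  refine sum_ite_iff _ _ (S.erase j) _ (fun x => ?_)
  constructor
  · rintro ⟨h1, h2⟩
    obtain ⟨a, b⟩ := (ent_inv j S x).1 h2
    exact ⟨⟨h1, a⟩, b⟩
  · rintro ⟨⟨h1, a⟩, b⟩
    exact ⟨h1, (ent_inv j S x).2 ⟨a, b⟩⟩

theorem sum_qq_in (n : ℕ) (S : Finset (Fin n)) :
    ∑ S' : Finset (Fin n), qq n S' S = inF n S := by
  simp_rw [qq_eq]
  rw [inF_eq, Finset.sum_add_distrib]
  congr 1
  · rw [Finset.sum_comm]
    apply Finset.sum_congr rfl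
    intro k _
    rw [Finset.sum_comm]
    apply Finset.sum_congr rfl
    intro j _
    refine sum_ite_iff _ _ (insert k (S.erase j)) _ (fun x => ?_)
    constructor
    · rintro ⟨h1, h2⟩
      have hjk : j ≠ k := fun h => by subst h; omega
      obtain ⟨a, b, c⟩ := (hop_inv k j hjk S x).1 h2
      exact ⟨⟨h1, a, b⟩, c⟩
    · rintro ⟨⟨h1, a, b⟩, c⟩
      have hjk : j ≠ k := fun h => by subst h; omega
      exact ⟨h1, (hop_inv k j hjk S x).2 ⟨a, b, c⟩⟩
  · rw [Finset.sum_comm]
    apply Finset.sum_congr rfl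
    intro j _
    exact ent_in_sum n S j

/-! ### the balance identity -/

/-- the indicator of `S` as a function on the natural numbers -/
noncomputable def tau (n : ℕ) (S : Finset (Fin n)) : ℕ → ℝ :=
  fun a => if h : a < n then (if (⟨a, h⟩ : Fin n) ∈ S then 1 else 0) else 0

theorem tau_val (n : ℕ) (S : Finset (Fin n)) (i : Fin n) :
    tau n S i.val = if i ∈ S then 1 else 0 := by
  show (if h : i.val < n then (if (⟨i.val, h⟩ : Fin n) ∈ S then (1 : ℝ) else 0) else 0) = _
  rw [dif_pos i.isLt]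

theorem tele (n : ℝ) (hn : n ≠ 0) (τ : ℕ → ℝ) (M : ℕ) :
    ∑ a ∈ range M, (1 - ((a + 1 : ℕ) : ℝ) / n) * (τ (a + 1) - τ a)
      = (1 - (M : ℝ) / n) * τ M - τ 0 + (1 / n) * ∑ a ∈ range M, τ a := by
  induction M with
  | zero => simp
  | succ M ih =>
    rw [Finset.sum_range_succ, Finset.sum_range_succ, ih]
    push_cast
    field_simp
    ring

theorem hop_diff (n : ℕ) (S : Finset (Fin n)) (k j : Fin n) :
    (if j.val = k.val + 1 ∧ k ∉ S ∧ j ∈ S then 1 - (j.val : ℝ) / n else 0)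
      - (if j.val = k.val + 1 ∧ k ∈ S ∧ j ∉ S then 1 - (j.val : ℝ) / n else 0)
      = if j.val = k.val + 1 then
          (1 - (j.val : ℝ) / n) * (tau n S j.val - tau n S k.val) else 0 := by
  rw [tau_val, tau_val]
  by_cases h1 : j.val = k.val + 1 <;> by_cases h2 : k ∈ S <;> by_cases h3 : j ∈ S <;>
    simp [h1, h2, h3]

theorem ent_diff (n : ℕ) (S : Finset (Fin n)) (j : Fin n) :
    (if j.val = 0 ∧ j ∈ S then (1 / 2 : ℝ) else 0)
      - (if j.val = 0 ∧ j ∉ S then (1 / 2 : ℝ) else 0)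
      = if j.val = 0 then tau n S j.val - 1 / 2 else 0 := by
  rw [tau_val]
  by_cases h1 : j.val = 0 <;> by_cases h3 : j ∈ S <;> simp [h1, h3]
  all_goals norm_num

theorem in_sub_out (n : ℕ) (S : Finset (Fin n)) :
    inF n S - outF n S = ((S.card : ℝ) - n / 2) / n := by
  rcases Nat.eq_zero_or_pos n with rfl | hn
  · have hS : S = ∅ := Finset.eq_empty_of_isEmpty S
    subst hS
    simp [inF_eq, outF_eq]
  obtain ⟨N, hN⟩ : ∃ N, n = N + 1 := ⟨n - 1, by omega⟩
  have hnR : (n : ℝ) ≠ 0 := by exact_mod_cast hn.ne'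
  have hcastN : (N : ℝ) = (n : ℝ) - 1 := by
    rw [hN]
    push_cast
    ring
  have hrange : range n = range (N + 1) := by rw [hN]
  have h1 : inF n S - outF n S
      = (∑ k : Fin n, ∑ j : Fin n, (if j.val = k.val + 1 then
          (1 - (j.val : ℝ) / n) * (tau n S j.val - tau n S k.val) else 0))
        + ∑ j : Fin n, (if j.val = 0 then tau n S j.val - 1 / 2 else 0) := by
    rw [inF_eq, outF_eq, add_sub_add_comm, ← Finset.sum_sub_distrib, ← Finset.sum_sub_distrib]
    congr 1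
    · apply Finset.sum_congr rfl
      intro k _
      rw [← Finset.sum_sub_distrib]
      exact Finset.sum_congr rfl (fun j _ => hop_diff n S k j)
    · exact Finset.sum_congr rfl (fun j _ => ent_diff n S j)
  have h2 : ∑ k : Fin n, ∑ j : Fin n, (if j.val = k.val + 1 then
        (1 - (j.val : ℝ) / n) * (tau n S j.val - tau n S k.val) else 0)
      = ∑ a ∈ range N, (1 - ((a + 1 : ℕ) : ℝ) / n) * (tau n S (a + 1) - tau n S a) := by
    refine (Fin.sum_univ_eq_sum_range (fun a => ∑ j : Fin n, (if j.val = a + 1 then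
        (1 - (j.val : ℝ) / n) * (tau n S j.val - tau n S a) else 0)) n).trans ?_
    rw [hrange, Finset.sum_range_succ]
    have hlast : ∑ j : Fin n, (if j.val = N + 1 then
        (1 - (j.val : ℝ) / n) * (tau n S j.val - tau n S N) else 0) = 0 := by
      apply Finset.sum_eq_zero
      intro j _
      rw [if_neg]
      have := j.isLt
      omega
    rw [hlast, add_zero]
    apply Finset.sum_congr rfl
    intro a ha
    have ha' : a + 1 < n := by
      have := Finset.mem_range.1 ha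
      omega
    refine (Fin.sum_univ_eq_sum_range (fun b => if b = a + 1 then
        (1 - (b : ℝ) / n) * (tau n S b - tau n S a) else 0) n).trans ?_
    rw [Finset.sum_ite_eq', if_pos (Finset.mem_range.2 ha')]
  have h3 : ∑ j : Fin n, (if j.val = 0 then tau n S j.val - 1 / 2 else 0)
      = tau n S 0 - 1 / 2 := by
    refine (Fin.sum_univ_eq_sum_range (fun b => if b = 0 then tau n S b - 1 / 2 else 0) n).trans ?_
    rw [Finset.sum_ite_eq', if_pos (Finset.mem_range.2 hn)]
  have h4 : (S.card : ℝ) = ∑ a ∈ range N, tau n S a + tau n S N := by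
    rw [← Finset.sum_range_succ, ← hrange, ← Fin.sum_univ_eq_sum_range (tau n S) n]
    simp [tau_val]
  rw [h1, h2, h3, tele (n : ℝ) hnR (tau n S) N, h4, hcastN]
  field_simp
  ring

/-- the balance identity for the chain -/
theorem qq_bal (n : ℕ) (S : Finset (Fin n)) :
    ∑ S' : Finset (Fin n), qq n S' S - ∑ S' : Finset (Fin n), qq n S S'
      = ((S.card : ℝ) - n / 2) / n := by
  rw [sum_qq_in, sum_qq_out]
  exact in_sub_out n S

/-! ### bounds on the row sums -/

theorem outF_le (n : ℕ) (S : Finset (Fin n)) : outF n S ≤ n := by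
  rcases Nat.eq_zero_or_pos n with rfl | hn
  · simp [outF_eq]
  have hnR : (0 : ℝ) < n := by exact_mod_cast hn
  have hn1 : (1 : ℝ) ≤ n := by exact_mod_cast hn
  rw [outF_eq]
  have hc : (0 : ℝ) ≤ 1 - 1 / n := by
    rw [sub_nonneg, div_le_one hnR]
    exact hn1
  have h1 : ∑ k : Fin n, ∑ j : Fin n,
      (if j.val = k.val + 1 ∧ k ∈ S ∧ j ∉ S then 1 - (j.val : ℝ) / n else 0)
      ≤ ∑ k : Fin n, (1 - 1 / (n : ℝ)) := by
    apply Finset.sum_le_sum
    intro k _
    refine le_trans (Finset.sum_le_sum (fun j _ => ?_))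
      (sum_val_eq_le n (k.val + 1) (1 - 1 / (n : ℝ)) hc)
    by_cases h : j.val = k.val + 1
    · rw [if_pos h]
      split_ifs
      · have hj1 : (1 : ℝ) ≤ (j.val : ℝ) := by exact_mod_cast (by omega : 1 ≤ j.val)
        have hdiv : (1 : ℝ) / n ≤ (j.val : ℝ) / n := by gcongr
        linarith
      · exact hc
    · rw [if_neg h, if_neg (fun hh => h hh.1)]
  have h2 : ∑ j : Fin n, (if j.val = 0 ∧ j ∉ S then (1 / 2 : ℝ) else 0) ≤ 1 / 2 := by
    refine le_trans (Finset.sum_le_sum (fun j _ => ?_))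
      (sum_val_eq_le n 0 (1 / 2) (by norm_num))
    by_cases h : j.val = 0
    · rw [if_pos h]
      split_ifs <;> norm_num
    · rw [if_neg h, if_neg (fun hh => h hh.1)]
  have h3 : ∑ k : Fin n, (1 - 1 / (n : ℝ)) = n - 1 := by
    rw [Finset.sum_const, Finset.card_univ, Fintype.card_fin, nsmul_eq_mul]
    field_simp
  linarith

theorem qq_out_le (n : ℕ) (S : Finset (Fin n)) : ∑ S' : Finset (Fin n), qq n S S' ≤ n := by
  rw [sum_qq_out]
  exact outF_le n S

theorem outF_ge_desc (n : ℕ) (S : Finset (Fin n)) : (1 / 2 : ℝ) * desc n S ≤ outF n S := by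
  rw [outF_eq, desc_eq]
  have hent : 0 ≤ ∑ j : Fin n, (if j.val = 0 ∧ j ∉ S then (1 / 2 : ℝ) else 0) :=
    Finset.sum_nonneg (fun j _ => by split_ifs <;> norm_num)
  have hmain : (1 / 2 : ℝ) * ((univ.filter fun k : Fin n =>
        2 * (k.val + 1) ≤ n ∧ k ∈ S ∧ ∀ j : Fin n, j.val = k.val + 1 → j ∉ S).card : ℝ)
      ≤ ∑ k : Fin n, ∑ j : Fin n,
        (if j.val = k.val + 1 ∧ k ∈ S ∧ j ∉ S then 1 - (j.val : ℝ) / n else 0) := by
    rw [Finset.card_filter]
    push_cast
    rw [Finset.mul_sum]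
    apply Finset.sum_le_sum
    intro k _
    have hnn : ∀ j : Fin n,
        0 ≤ (if j.val = k.val + 1 ∧ k ∈ S ∧ j ∉ S then 1 - (j.val : ℝ) / n else 0) := by
      intro j
      split_ifs
      · exact r_nonneg n j
      · exact le_refl 0
    by_cases hk : 2 * (k.val + 1) ≤ n ∧ k ∈ S ∧ ∀ j : Fin n, j.val = k.val + 1 → j ∉ S
    · rw [if_pos hk]
      obtain ⟨hk1, hk2, hk3⟩ := hk
      have hlt : k.val + 1 < n := by omega
      have hj0 : (⟨k.val + 1, hlt⟩ : Fin n) ∉ S := hk3 ⟨k.val + 1, hlt⟩ rfl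
      have hnR : (0 : ℝ) < n := by exact_mod_cast (by omega : 0 < n)
      have hle : ((k.val + 1 : ℕ) : ℝ) * 2 ≤ n := by exact_mod_cast (by omega : (k.val + 1) * 2 ≤ n)
      have hdiv : ((k.val + 1 : ℕ) : ℝ) / n ≤ 1 / 2 := by
        rw [div_le_iff₀ hnR]
        linarith
      have hterm : (1 / 2 : ℝ) * 1 ≤
          (if (⟨k.val + 1, hlt⟩ : Fin n).val = k.val + 1 ∧ k ∈ S ∧ (⟨k.val + 1, hlt⟩ : Fin n) ∉ S
            then 1 - (((⟨k.val + 1, hlt⟩ : Fin n).val : ℕ) : ℝ) / n else 0) := by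
        rw [if_pos ⟨rfl, hk2, hj0⟩]
        show (1 / 2 : ℝ) * 1 ≤ 1 - ((k.val + 1 : ℕ) : ℝ) / n
        linarith
      exact le_trans hterm (Finset.single_le_sum
        (f := fun j : Fin n =>
          if j.val = k.val + 1 ∧ k ∈ S ∧ j ∉ S then 1 - (j.val : ℝ) / n else 0)
        (fun j _ => hnn j) (Finset.mem_univ (⟨k.val + 1, hlt⟩ : Fin n)))
    · rw [if_neg hk, mul_zero]
      exact Finset.sum_nonneg (fun j _ => hnn j)
  linarith

theorem out_ge_desc (n : ℕ) (S : Finset (Fin n)) :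
    (1 / 2 : ℝ) * desc n S ≤ ∑ S' : Finset (Fin n), qq n S S' := by
  rw [sum_qq_out]
  exact outF_ge_desc n S

/-! ### the entry weight -/

theorem qq_entry (n : ℕ) (S : Finset (Fin n)) :
    ∑ S' ∈ univ.filter (fun S' : Finset (Fin n) => S'.card + 1 = S.card), qq n S' S
      ≤ 1 / 2 := by
  have h1 : ∀ S' ∈ univ.filter (fun S' : Finset (Fin n) => S'.card + 1 = S.card),
      qq n S' S
        = ∑ j : Fin n, if j.val = 0 ∧ j ∉ S' ∧ S = insert j S' then (1 / 2 : ℝ) else 0 := by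
    intro S' hS'
    have hc : S'.card + 1 = S.card := (Finset.mem_filter.1 hS').2
    rw [qq_eq]
    have hz : (∑ k : Fin n, ∑ j : Fin n,
        if j.val = k.val + 1 ∧ k ∈ S' ∧ j ∉ S' ∧ S = insert j (S'.erase k)
          then 1 - (j.val : ℝ) / n else 0) = 0 := by
      apply Finset.sum_eq_zero
      intro k _
      apply Finset.sum_eq_zero
      intro j _
      apply if_neg
      rintro ⟨_, hk, hj, hS⟩
      have hj' : j ∉ S'.erase k := fun h => hj (Finset.mem_of_mem_erase h)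
      rw [hS, Finset.card_insert_of_notMem hj', Finset.card_erase_of_mem hk] at hc
      have hpos : 0 < S'.card := Finset.card_pos.2 ⟨k, hk⟩
      omega
    rw [hz, zero_add]
  rw [Finset.sum_congr rfl h1]
  have h2 : ∑ S' ∈ univ.filter (fun S' : Finset (Fin n) => S'.card + 1 = S.card),
        ∑ j : Fin n, (if j.val = 0 ∧ j ∉ S' ∧ S = insert j S' then (1 / 2 : ℝ) else 0)
      ≤ ∑ S' : Finset (Fin n),
        ∑ j : Fin n, (if j.val = 0 ∧ j ∉ S' ∧ S = insert j S' then (1 / 2 : ℝ) else 0) := by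
    apply Finset.sum_le_sum_of_subset_of_nonneg (Finset.filter_subset _ _)
    intro S' _ _
    apply Finset.sum_nonneg
    intro j _
    split_ifs <;> norm_num
  have h3 : ∑ S' : Finset (Fin n),
        ∑ j : Fin n, (if j.val = 0 ∧ j ∉ S' ∧ S = insert j S' then (1 / 2 : ℝ) else 0)
      = ∑ j : Fin n, (if j.val = 0 ∧ j ∈ S then (1 / 2 : ℝ) else 0) := by
    rw [Finset.sum_comm]
    exact Finset.sum_congr rfl (fun j _ => ent_in_sum n S j)
  have h4 : ∑ j : Fin n, (if j.val = 0 ∧ j ∈ S then (1 / 2 : ℝ) else 0) ≤ 1 / 2 := by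
    refine le_trans (Finset.sum_le_sum (fun j _ => ?_))
      (sum_val_eq_le n 0 (1 / 2) (by norm_num))
    by_cases h : j.val = 0
    · rw [if_pos h]
      split_ifs <;> norm_num
    · rw [if_neg h, if_neg (fun hh => h hh.1)]
  linarith

end Vale.Agent.Lib.P160.H39
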